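import Mathlib
import Vale.Agent.H9.RankCover

namespace Vale.Agent.H9

open Finset

/-- Talagrand's fractional-versus-integral comparison for fractional covers whose support
has pairwise disjoint members on every level (equal size). -/
theorem talagrand_disjoint_levels {X : Type*} [Fintype X] [DecidableEq X]
    (g : Finset X → ℝ) (p : ℝ) (hp0 : 0 ≤ p) (hp1 : p ≤ 1) (hg : ∀ S, 0 ≤ g S)
    (hdisj : ∀ S T, g S ≠ 0 → g T ≠ 0 → S.card = T.card → S ≠ T → Disjoint S T)
    (hcost : ∑ S, g S * p ^ S.card ≤ 1 / 2) :
    ∃ G : Finset (Finset X), ∑ T ∈ G, (p / 32) ^ T.card ≤ 1 / 2 ∧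
      ∀ H : Finset X, 1 ≤ ∑ S ∈ H.powerset, g S → ∃ T ∈ G, T ⊆ H := by
  classical
  rcases eq_or_lt_of_le hp0 with hp | hp
  · -- the degenerate case p = 0
    subst hp
    refine ⟨Finset.univ.filter (fun S => S.Nonempty ∧ g S ≠ 0), ?_, ?_⟩
    · have h0 : ∀ T ∈ Finset.univ.filter (fun S : Finset X => S.Nonempty ∧ g S ≠ 0),
          ((0 : ℝ) / 32) ^ T.card = 0 := by
        intro T hT
        have hne := (Finset.mem_filter.mp hT).2.1
        rw [zero_div, zero_pow (Finset.card_ne_zero.mpr hne)]
      rw [Finset.sum_eq_zero h0]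
      norm_num
    · intro H hH
      by_contra hno
      have hg0 : g ∅ ≤ 1 / 2 := by
        have h1 : ∑ S : Finset X, g S * (0 : ℝ) ^ S.card = g ∅ := by
          rw [Finset.sum_eq_single ∅]
          · simp
          · intro S _ hS
            rw [zero_pow (Finset.card_ne_zero.mpr (Finset.nonempty_iff_ne_empty.mpr hS)),
              mul_zero]
          · intro h
            exact absurd (Finset.mem_univ _) h
        linarith
      have h2 : ∑ S ∈ H.powerset, g S = g ∅ := by
        rw [Finset.sum_eq_single ∅]
        · intro S hS hS0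
          by_contra hgS
          exact hno ⟨S, Finset.mem_filter.mpr ⟨Finset.mem_univ _,
            Finset.nonempty_iff_ne_empty.mpr hS0, hgS⟩, Finset.mem_powerset.mp hS⟩
        · intro h
          exact absurd (Finset.empty_mem_powerset H) h
      linarith
  · -- the main case p > 0
    set n := Fintype.card X with hn
    let t : ℕ → Finset (Finset X) := fun s =>
      (Finset.univ.filter (fun S : Finset X => S.card = s)).filter (fun S => g S ≠ 0)
    have ht_card : ∀ s, ∀ S ∈ t s, S.card = s := by
      intro s S hS
      exact (Finset.mem_filter.mp (Finset.mem_filter.mp hS).1).2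
    have ht_ne : ∀ s, ∀ S ∈ t s, g S ≠ 0 := by
      intro s S hS
      exact (Finset.mem_filter.mp hS).2
    have hex : ∀ s, ∃ e : ℕ → Finset X, (Finset.range (t s).card).image e = t s ∧
        ∀ m n, m ≤ n → n < (t s).card → g (e n) ≤ g (e m) :=
      fun s => exists_sorted_enum g (t s)
    choose e himg hmono using hex
    let b : ℕ → ℕ := fun s => ⌈(1 / p) ^ s⌉₊
    have hinv : 1 ≤ 1 / p := by
      rw [le_div_iff₀ hp]
      linarith
    have hb_ge : ∀ s, (1 / p) ^ s ≤ (b s : ℝ) := fun s => Nat.le_ceil _
    have hb_le : ∀ s, (b s : ℝ) ≤ 2 * (1 / p) ^ s := by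
      intro s
      have h1 : (b s : ℝ) < (1 / p) ^ s + 1 :=
        Nat.ceil_lt_add_one (pow_nonneg (le_trans zero_le_one hinv) s)
      have h2 : 1 ≤ (1 / p) ^ s := one_le_pow₀ hinv
      linarith
    have hq0 : 0 ≤ p / 32 := by positivity
    let D : Finset (Σ _ : ℕ, Σ _ : ℕ, Finset ℕ) :=
      (Finset.range n).sigma (fun s => (Finset.range (t (s + 1)).card).sigma (fun k =>
        Finset.powersetCard (k + 1)
          (Finset.range (min (b (s + 1) * (k + 1)) (t (s + 1)).card))))
    let φ : (Σ _ : ℕ, Σ _ : ℕ, Finset ℕ) → Finset X := fun d => d.2.2.biUnion (e (d.1 + 1))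
    refine ⟨D.image φ, ?_, ?_⟩
    · -- the cost of the cover
      have hterm : ∀ s k : ℕ, ∀ A ∈ Finset.powersetCard (k + 1)
          (Finset.range (min (b (s + 1) * (k + 1)) (t (s + 1)).card)),
          (p / 32) ^ (A.biUnion (e (s + 1))).card = ((p / 32) ^ (s + 1)) ^ (k + 1) := by
        intro s k A hA
        obtain ⟨hAsub, hAcard⟩ := Finset.mem_powersetCard.mp hA
        have hAsub' : A ⊆ Finset.range (t (s + 1)).card := by
          intro m hm
          have := Finset.mem_range.mp (hAsub hm)
          exact Finset.mem_range.mpr (lt_of_lt_of_le this (min_le_right _ _))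
        rw [card_biUnion_level (t (s + 1)) (s + 1) (ht_card (s + 1))
          (fun S hS T hT hST => hdisj S T (ht_ne _ S hS) (ht_ne _ T hT)
            ((ht_card _ S hS).trans (ht_card _ T hT).symm) hST)
          (e (s + 1)) (himg (s + 1)) A hAsub', hAcard, pow_mul]
      have hy : ∀ s : ℕ, 3 * (b (s + 1) : ℝ) * (p / 32) ^ (s + 1) ≤ 3 / 16 * (1 / 32) ^ s := by
        intro s
        have h1 := hb_le (s + 1)
        have h2 : (1 / p) ^ (s + 1) * (p / 32) ^ (s + 1) = (1 / 32) ^ (s + 1) := by
          rw [← mul_pow]
          congr 1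
          field_simp
        have h3 : 0 ≤ (p / 32) ^ (s + 1) := pow_nonneg hq0 _
        calc 3 * (b (s + 1) : ℝ) * (p / 32) ^ (s + 1)
            ≤ 3 * (2 * (1 / p) ^ (s + 1)) * (p / 32) ^ (s + 1) := by
              apply mul_le_mul_of_nonneg_right _ h3
              linarith
          _ = 6 * ((1 / p) ^ (s + 1) * (p / 32) ^ (s + 1)) := by ring
          _ = 3 / 16 * (1 / 32) ^ s := by
              rw [h2, pow_succ]
              ring
      have hinner : ∀ s : ℕ, ∑ k ∈ Finset.range (t (s + 1)).card,
          ∑ A ∈ Finset.powersetCard (k + 1)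
            (Finset.range (min (b (s + 1) * (k + 1)) (t (s + 1)).card)),
            (p / 32) ^ (A.biUnion (e (s + 1))).card ≤ 3 / 8 * (1 / 32) ^ s := by
        intro s
        set y : ℝ := 3 / 16 * (1 / 32) ^ s with hydef
        have hy0 : 0 ≤ y := by positivity
        have hy1 : y ≤ 1 / 2 := by
          have : (1 / 32 : ℝ) ^ s ≤ 1 := pow_le_one₀ (by norm_num) (by norm_num)
          rw [hydef]
          linarith
        have hk : ∀ k ∈ Finset.range (t (s + 1)).card,
            ∑ A ∈ Finset.powersetCard (k + 1)
              (Finset.range (min (b (s + 1) * (k + 1)) (t (s + 1)).card)),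
              (p / 32) ^ (A.biUnion (e (s + 1))).card ≤ y ^ (k + 1) := by
          intro k _
          rw [Finset.sum_congr rfl (hterm s k), Finset.sum_const, Finset.card_powersetCard,
            Finset.card_range, nsmul_eq_mul]
          have hx0 : 0 ≤ (p / 32) ^ (s + 1) := pow_nonneg hq0 _
          have hch : ((min (b (s + 1) * (k + 1)) (t (s + 1)).card).choose (k + 1) : ℝ)
              ≤ ((b (s + 1) * (k + 1)).choose (k + 1) : ℝ) := by
            exact_mod_cast Nat.choose_le_choose (k + 1) (min_le_left _ _)
          calc ((min (b (s + 1) * (k + 1)) (t (s + 1)).card).choose (k + 1) : ℝ)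
                * ((p / 32) ^ (s + 1)) ^ (k + 1)
              ≤ ((b (s + 1) * (k + 1)).choose (k + 1) : ℝ) * ((p / 32) ^ (s + 1)) ^ (k + 1) :=
                mul_le_mul_of_nonneg_right hch (pow_nonneg hx0 _)
            _ ≤ (3 * (b (s + 1) : ℝ) * (p / 32) ^ (s + 1)) ^ (k + 1) :=
                choose_mul_pow_le (b (s + 1)) (k + 1) _ hx0
            _ ≤ y ^ (k + 1) :=
                pow_le_pow_left₀ (by positivity) (hy s) (k + 1)
        calc _ ≤ ∑ k ∈ Finset.range (t (s + 1)).card, y ^ (k + 1) := Finset.sum_le_sum hk
          _ ≤ 2 * y - 2 * y ^ ((t (s + 1)).card + 1) := geom_sum_succ_le y hy0 hy1 _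
          _ ≤ 2 * y := by
              have : 0 ≤ y ^ ((t (s + 1)).card + 1) := pow_nonneg hy0 _
              linarith
          _ = 3 / 8 * (1 / 32) ^ s := by rw [hydef]; ring
      have hgeo : ∑ s ∈ Finset.range n, (1 / 32 : ℝ) ^ s ≤ 17 / 16 := by
        have h1 := geom_sum_succ_le (1 / 32 : ℝ) (by norm_num) (by norm_num) n
        have h2 : ∑ s ∈ Finset.range n, (1 / 32 : ℝ) ^ s
            ≤ ∑ s ∈ Finset.range (n + 1), (1 / 32 : ℝ) ^ s := by
          rw [Finset.sum_range_succ]
          have : 0 ≤ (1 / 32 : ℝ) ^ n := by positivity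
          linarith
        rw [Finset.sum_range_succ'] at h2
        have h3 : 0 ≤ (1 / 32 : ℝ) ^ (n + 1) := by positivity
        simp only [pow_zero] at h2
        linarith
      calc ∑ T ∈ D.image φ, (p / 32) ^ T.card
          ≤ ∑ d ∈ D, (p / 32) ^ (φ d).card :=
            Finset.sum_image_le_of_nonneg (fun T _ => pow_nonneg hq0 _)
        _ = ∑ s ∈ Finset.range n, ∑ k ∈ Finset.range (t (s + 1)).card,
              ∑ A ∈ Finset.powersetCard (k + 1)
                (Finset.range (min (b (s + 1) * (k + 1)) (t (s + 1)).card)),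
                (p / 32) ^ (A.biUnion (e (s + 1))).card := by
            rw [Finset.sum_sigma]
            apply Finset.sum_congr rfl
            intro s _
            rw [Finset.sum_sigma]
        _ ≤ ∑ s ∈ Finset.range n, 3 / 8 * (1 / 32 : ℝ) ^ s :=
            Finset.sum_le_sum (fun s _ => hinner s)
        _ = 3 / 8 * ∑ s ∈ Finset.range n, (1 / 32 : ℝ) ^ s := by rw [Finset.mul_sum]
        _ ≤ 1 / 2 := by linarith
    · -- the covering property
      intro H hH
      by_contra hno
      have hlevel : ∀ s : ℕ, ∑ S ∈ H.powerset.filter (fun S => S.card = s), g S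
          ≤ p ^ s * ∑ S ∈ Finset.univ.filter (fun S : Finset X => S.card = s), g S := by
        intro s
        rcases Nat.eq_zero_or_pos s with hs | hs
        · subst hs
          rw [pow_zero, one_mul]
          apply Finset.sum_le_sum_of_subset_of_nonneg
          · intro S hS
            exact Finset.mem_filter.mpr ⟨Finset.mem_univ _, (Finset.mem_filter.mp hS).2⟩
          · intro S _ _
            exact hg S
        · have hH' : ∀ k : ℕ, 1 ≤ k → ∀ A ∈ Finset.powersetCard k
              (Finset.range (min (b s * k) (t s).card)), ¬ (A.biUnion (e s) ⊆ H) := by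
            intro k hk A hA hsub
            apply hno
            obtain ⟨s', rfl⟩ : ∃ s', s = s' + 1 := ⟨s - 1, by omega⟩
            obtain ⟨k', rfl⟩ : ∃ k', k = k' + 1 := ⟨k - 1, by omega⟩
            obtain ⟨hAsub, hAcard⟩ := Finset.mem_powersetCard.mp hA
            have hAsub' : A ⊆ Finset.range (t (s' + 1)).card := by
              intro m hm
              have := Finset.mem_range.mp (hAsub hm)
              exact Finset.mem_range.mpr (lt_of_lt_of_le this (min_le_right _ _))
            have hk' : k' + 1 ≤ (t (s' + 1)).card := by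
              have := Finset.card_le_card hAsub'
              rw [hAcard, Finset.card_range] at this
              exact this
            have hs' : s' < n := by
              have hpos : 0 < (t (s' + 1)).card := by omega
              obtain ⟨S, hS⟩ := Finset.card_pos.mp hpos
              have h1 := ht_card _ S hS
              have h2 := Finset.card_le_univ S
              omega
            refine ⟨A.biUnion (e (s' + 1)), Finset.mem_image.mpr ⟨⟨s', k', A⟩, ?_, rfl⟩, hsub⟩
            simp only [D, Finset.mem_sigma, Finset.mem_range]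
            exact ⟨hs', by omega, hA⟩
          have hlev := level_bound g (t s) (fun S _ => hg S) (e s) (himg s) (hmono s) (b s) H hH'
          have hZ : ∑ S ∈ H.powerset.filter (fun S => S.card = s), g S
              ≤ ∑ S ∈ (t s).filter (fun S => S ⊆ H), g S := by
            rw [← Finset.sum_filter_ne_zero]
            apply Finset.sum_le_sum_of_subset_of_nonneg
            · intro S hS
              obtain ⟨hS1, hS2⟩ := Finset.mem_filter.mp hS
              obtain ⟨hS3, hS4⟩ := Finset.mem_filter.mp hS1
              refine Finset.mem_filter.mpr ⟨?_, Finset.mem_powerset.mp hS3⟩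
              exact Finset.mem_filter.mpr ⟨Finset.mem_filter.mpr ⟨Finset.mem_univ _, hS4⟩, hS2⟩
            · intro S _ _
              exact hg S
          have hL : ∑ S ∈ t s, g S = ∑ S ∈ Finset.univ.filter (fun S : Finset X => S.card = s), g S :=
            Finset.sum_filter_ne_zero _
          have hZ0 : 0 ≤ ∑ S ∈ (t s).filter (fun S => S ⊆ H), g S :=
            Finset.sum_nonneg (fun S _ => hg S)
          have hps : 0 < p ^ s := pow_pos hp s
          have h1 : (1 / p) ^ s * ∑ S ∈ (t s).filter (fun S => S ⊆ H), g S ≤ ∑ S ∈ t s, g S :=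
            le_trans (mul_le_mul_of_nonneg_right (hb_ge s) hZ0) hlev
          have h2 : p ^ s * ((1 / p) ^ s * ∑ S ∈ (t s).filter (fun S => S ⊆ H), g S)
              = ∑ S ∈ (t s).filter (fun S => S ⊆ H), g S := by
            rw [← mul_assoc, ← mul_pow]
            have : p * (1 / p) = 1 := by field_simp
            rw [this, one_pow, one_mul]
          calc ∑ S ∈ H.powerset.filter (fun S => S.card = s), g S
              ≤ ∑ S ∈ (t s).filter (fun S => S ⊆ H), g S := hZ
            _ = p ^ s * ((1 / p) ^ s * ∑ S ∈ (t s).filter (fun S => S ⊆ H), g S) := h2.symm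
            _ ≤ p ^ s * ∑ S ∈ t s, g S := mul_le_mul_of_nonneg_left h1 hps.le
            _ = _ := by rw [hL]
      have hsum1 : ∑ S ∈ H.powerset, g S
          = ∑ s ∈ Finset.range (n + 1), ∑ S ∈ H.powerset.filter (fun S => S.card = s), g S := by
        rw [Finset.sum_fiberwise_of_maps_to]
        intro S _
        exact Finset.mem_range.mpr (Nat.lt_succ_of_le (Finset.card_le_univ S))
      have hsum2 : ∑ S : Finset X, g S * p ^ S.card
          = ∑ s ∈ Finset.range (n + 1),
              p ^ s * ∑ S ∈ Finset.univ.filter (fun S : Finset X => S.card = s), g S := by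
        rw [← Finset.sum_fiberwise_of_maps_to (g := fun S : Finset X => S.card)
          (t := Finset.range (n + 1))
          (fun S _ => Finset.mem_range.mpr (Nat.lt_succ_of_le (Finset.card_le_univ S)))]
        apply Finset.sum_congr rfl
        intro s _
        rw [Finset.mul_sum]
        apply Finset.sum_congr rfl
        intro S hS
        rw [(Finset.mem_filter.mp hS).2, mul_comm]
      have hfin : ∑ S ∈ H.powerset, g S ≤ 1 / 2 := by
        rw [hsum1]
        refine le_trans (Finset.sum_le_sum (fun s _ => hlevel s)) ?_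
        rw [← hsum2]
        exact hcost
      linarith

end Vale.Agent.H9
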